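import Vale.Agent.Lib.P062.Game

/-!
# P062: the table checker and its soundness
-/

namespace Vale.Agent.P062

/-! ## Situations -/

theorem sub_spec {a b : ℕ} (h : sub a b = true) (i : ℕ) (hi : a.testBit i = true) :
    b.testBit i = true := by
  have h1 : a &&& b = a := Nat.eq_of_beq_eq_true h
  have h2 : (a &&& b).testBit i = true := by rw [h1]; exact hi
  rw [Nat.testBit_and] at h2
  simp at h2
  exact h2.2

/-- Maker to move: owning the cells `x`, with the cells `z` free, Maker wins. -/
def OSit (N x z : ℕ) : Prop :=
  ∀ e, IsFrame e → ∀ M B : Set Cell, (∀ i, x.testBit i = true → e i ∈ M) →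
    (∀ i, z.testBit i = true → e i ∉ M ∧ e i ∉ B) → MWins N M B

/-- Breaker to move: owning the cells `x`, with the cells `y` free, Maker wins. -/
def BSit (N x y : ℕ) : Prop :=
  ∀ e, IsFrame e → ∀ M B : Set Cell, (∀ i, x.testBit i = true → e i ∈ M) →
    (∀ i, y.testBit i = true → e i ∉ M ∧ e i ∉ B) →
    ∀ b, b ∉ M → b ∉ B → MWins N M (insert b B)

theorem OSit.mono {N K x z : ℕ} (h : N ≤ K) (H : OSit N x z) : OSit K x z :=
  fun e he M B h1 h2 => (H e he M B h1 h2).mono h

theorem BSit.mono {N K x y : ℕ} (h : N ≤ K) (H : BSit N x y) : BSit K x y :=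
  fun e he M B h1 h2 b h3 h4 => (H e he M B h1 h2 b h3 h4).mono h

theorem testBit_bit (m i : ℕ) : (bit m).testBit i = decide (m = i) := by
  have h : bit m = 2 ^ m := by
    show 1 <<< m = 2 ^ m
    rw [Nat.one_shiftLeft]
  rw [h, Nat.testBit_two_pow]

theorem testBit_bit_self (m : ℕ) : (bit m).testBit m = true := by
  simp [testBit_bit]

/-- A situation with an immediate win. -/
theorem osit_win {x m o a : ℕ} (ho : o < 8) (ha : a % 16 ≤ maxCol o)
    (hc : sub (base o <<< a) (x ||| bit m) = true) : OSit 1 x (bit m) := by
  intro e he M B h1 h2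
  have hm := h2 m (testBit_bit_self m)
  refine ⟨e m, hm.1, hm.2, Or.inl ?_⟩
  refine exists_copy he o a ho ha _ ?_
  intro i hi
  have h3 := sub_spec hc i hi
  rw [Nat.testBit_or, testBit_bit] at h3
  simp only [Bool.or_eq_true, decide_eq_true_eq] at h3
  rcases h3 with h3 | rfl
  · exact Set.mem_insert_of_mem _ (h1 i h3)
  · exact Set.mem_insert _ _

/-- A situation with a forced reply. -/
theorem osit_forced {N x m r o a z : ℕ} (ho : o < 8) (ha : a % 16 ≤ maxCol o)
    (hc : sub (base o <<< a) (x ||| bit m ||| bit r) = true) (hmr : m ≠ r)
    (hmz : z.testBit m = false) (hrz : z.testBit r = false)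
    (H : OSit N (x ||| bit m) z) : OSit (N + 2) x (z ||| bit m ||| bit r) := by
  intro e he M B h1 h2
  have hm := h2 m (by simp [testBit_bit_self])
  have hr := h2 r (by simp [testBit_bit_self])
  refine ⟨e m, hm.1, hm.2, Or.inr ?_⟩
  intro b hb hb'
  have hrm : e r ≠ e m := fun h => hmr (he.injective h).symm
  by_cases hbr : b = e r
  · subst hbr
    refine (H e he (insert (e m) M) (insert (e r) B) ?_ ?_).mono (by omega)
    · intro i hi
      rw [Nat.testBit_or, testBit_bit] at hi
      simp only [Bool.or_eq_true, decide_eq_true_eq] at hi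
      rcases hi with hi | rfl
      · exact Set.mem_insert_of_mem _ (h1 i hi)
      · exact Set.mem_insert _ _
    · intro i hi
      have h3 := h2 i (by simp [hi])
      have him : i ≠ m := by rintro rfl; rw [hi] at hmz; exact absurd hmz (by decide)
      have hir : i ≠ r := by rintro rfl; rw [hi] at hrz; exact absurd hrz (by decide)
      simp only [Set.mem_insert_iff, not_or]
      exact ⟨⟨fun h => him (he.injective h), h3.1⟩, ⟨fun h => hir (he.injective h), h3.2⟩⟩
  · refine (MWins.mono (n := 1) (by omega) ?_)
    refine ⟨e r, ?_, ?_, Or.inl ?_⟩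
    · simp only [Set.mem_insert_iff, not_or]
      exact ⟨hrm, hr.1⟩
    · simp only [Set.mem_insert_iff, not_or]
      exact ⟨fun h => hbr h.symm, hr.2⟩
    · refine exists_copy he o a ho ha _ ?_
      intro i hi
      have h3 := sub_spec hc i hi
      rw [Nat.testBit_or, Nat.testBit_or, testBit_bit, testBit_bit] at h3
      simp only [Bool.or_eq_true, decide_eq_true_eq] at h3
      rcases h3 with (h3 | rfl) | rfl
      · exact Set.mem_insert_of_mem _ (Set.mem_insert_of_mem _ (h1 i h3))
      · exact Set.mem_insert_of_mem _ (Set.mem_insert _ _)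
      · exact Set.mem_insert _ _

/-- A situation with a quiet claim. -/
theorem osit_quiet {N x m x' y' : ℕ} (hx : ∀ i, x'.testBit i = true → (x ||| bit m).testBit i = true)
    (hmy : y'.testBit m = false) (H : BSit N x' y') : OSit (N + 1) x (y' ||| bit m) := by
  intro e he M B h1 h2
  have hm := h2 m (by simp [testBit_bit_self])
  refine ⟨e m, hm.1, hm.2, Or.inr ?_⟩
  intro b hb hb'
  refine H e he (insert (e m) M) B ?_ ?_ b hb hb'
  · intro i hi
    have h3 := hx i hi
    rw [Nat.testBit_or, testBit_bit] at h3
    simp only [Bool.or_eq_true, decide_eq_true_eq] at h3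
    rcases h3 with h3 | rfl
    · exact Set.mem_insert_of_mem _ (h1 i h3)
    · exact Set.mem_insert _ _
  · intro i hi
    have h3 := h2 i (by simp [hi])
    have him : i ≠ m := by rintro rfl; rw [hi] at hmy; exact absurd hmy (by decide)
    simp only [Set.mem_insert_iff, not_or]
    exact ⟨⟨fun h => him (he.injective h), h3.1⟩, h3.2⟩

/-! ## The table -/

theorem W_eq : W = 2 ^ 256 := by norm_num [W]

theorem go_sound (g : ℕ → ℕ) (s x0 y0 : ℕ)
    (hg : ∀ k < s, ∃ N, BSit N (ex (g k)) (ey (g k))) :
    ∀ (f c x av za I : ℕ), (∀ i, av.testBit i = true → y0.testBit i = true) →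
      (∀ i, za.testBit i = true → y0.testBit i = true) →
      (∀ N z', (∀ i, z'.testBit i = true → av.testBit i = true) → OSit N x z' →
        ∃ N', OSit N' x0 (z' ||| za)) →
      go g s x0 y0 f c x av za I = true →
      ∃ N, ∃ zs : List ℕ, (∀ z ∈ zs, (∀ i, z.testBit i = true → y0.testBit i = true) ∧
        OSit N x0 z) ∧ (∀ i, I.testBit i = true → ∃ z ∈ zs, z.testBit i = false) := by
  intro f
  induction f with
  | zero =>
    intro c x av za I _ _ _ H
    exact absurd H (by simp [go])
  | succ f ih =>
    intro c x av za I hav hza lift H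
    -- closing a response with free set `z' ||| za`
    have close : ∀ (N z' I' c' : ℕ), (∀ i, z'.testBit i = true → av.testBit i = true) →
        OSit N x z' → I' = I &&& (z' ||| za) →
        go g s x0 y0 f c' x0 y0 0 I' = true →
        ∃ N, ∃ zs : List ℕ, (∀ z ∈ zs, (∀ i, z.testBit i = true → y0.testBit i = true) ∧
          OSit N x0 z) ∧ (∀ i, I.testBit i = true → ∃ z ∈ zs, z.testBit i = false) := by
      intro N z' I' c' hz' hO hI' hgo
      obtain ⟨N1, hN1⟩ := lift N z' hz' hO
      obtain ⟨N2, zs, hzs, hzI⟩ := ih c' x0 y0 0 I' (fun i h => h)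
        (fun i h => by simp at h)
        (fun N z _ hz => ⟨N, by simpa using hz⟩) hgo
      refine ⟨max N1 N2, (z' ||| za) :: zs, ?_, ?_⟩
      · intro z hz
        rcases List.mem_cons.1 hz with rfl | hz
        · refine ⟨?_, hN1.mono (le_max_left _ _)⟩
          intro i hi
          rw [Nat.testBit_or, Bool.or_eq_true] at hi
          rcases hi with hi | hi
          · exact hav i (hz' i hi)
          · exact hza i hi
        · exact ⟨(hzs z hz).1, (hzs z hz).2.mono (le_max_right _ _)⟩
      · intro i hi
        by_cases hzi : (z' ||| za).testBit i = true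
        · have h1 : I'.testBit i = true := by
            rw [hI', Nat.testBit_and, hi, hzi]; rfl
          obtain ⟨z, hz, hz0⟩ := hzI i h1
          exact ⟨z, List.mem_cons_of_mem _ hz, hz0⟩
        · exact ⟨_, List.mem_cons_self, by simpa using hzi⟩
    unfold go at H
    simp only at H
    generalize hm : Nat.mod (Nat.shiftRight c 2) 256 = m at H
    generalize hc' : Nat.shiftRight c 29 = c' at H
    cases h3 : Nat.beq (Nat.land c 3) 3 with
    | true =>
      rw [h3] at H
      simp only [cond_true] at H
      generalize hr : Nat.mod (Nat.shiftRight c 10) 256 = r at H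
      have ho : Nat.mod (Nat.shiftRight c 18) 8 < 8 := Nat.mod_lt _ (by norm_num)
      generalize Nat.mod (Nat.shiftRight c 18) 8 = o at H ho
      generalize Nat.mod (Nat.shiftRight c 21) 256 = a at H
      simp only [Bool.and_eq_true] at H
      obtain ⟨⟨⟨⟨h4, h5⟩, h6⟩, h7⟩, h8⟩ := H
      have h4' : ∀ i, (bit m ||| bit r).testBit i = true → av.testBit i = true :=
        fun i hi => sub_spec h4 i hi
      have hmr : m ≠ r := by
        intro h
        subst h
        simp at h5
      have ha : a % 16 ≤ maxCol o := Nat.le_of_ble_eq_true h6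
      have hmav : av.testBit m = true := h4' m (by simp [testBit_bit_self])
      have hrav : av.testBit r = true := h4' r (by simp [testBit_bit_self])
      have hxor : ∀ i, (av ^^^ (bit m ||| bit r)).testBit i = true →
          av.testBit i = true ∧ i ≠ m ∧ i ≠ r := by
        intro i hi
        rw [Nat.testBit_xor] at hi
        by_cases him : (bit m ||| bit r).testBit i = true
        · rw [him, h4' i him] at hi
          exact absurd hi (by decide)
        · have him' : (bit m ||| bit r).testBit i = false := by simpa using him
          rw [him'] at hi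
          refine ⟨by simpa using hi, ?_, ?_⟩
          · rintro rfl
            simp [testBit_bit_self] at him
          · rintro rfl
            simp [testBit_bit_self] at him
      refine ih c' (x ||| bit m) (av ^^^ (bit m ||| bit r)) (za ||| (bit m ||| bit r)) I ?_ ?_ ?_ h8
      · intro i hi
        exact hav i (hxor i hi).1
      · intro i hi
        rw [Nat.testBit_or, Bool.or_eq_true] at hi
        rcases hi with hi | hi
        · exact hza i hi
        · exact hav i (h4' i hi)
      · intro N z' hz' hO
        have hmz : z'.testBit m = false := by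
          by_contra h
          have h' : z'.testBit m = true := by simpa using h
          exact (hxor m (hz' m h')).2.1 rfl
        have hrz : z'.testBit r = false := by
          by_contra h
          have h' : z'.testBit r = true := by simpa using h
          exact (hxor r (hz' r h')).2.2 rfl
        have h9 := osit_forced ho ha h7 hmr hmz hrz hO
        obtain ⟨N', hN'⟩ := lift _ (z' ||| bit m ||| bit r) (by
          intro i hi
          rw [Nat.testBit_or, Nat.testBit_or, testBit_bit, testBit_bit] at hi
          simp only [Bool.or_eq_true, decide_eq_true_eq] at hi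
          rcases hi with (hi | rfl) | rfl
          · exact (hxor i (hz' i hi)).1
          · exact hmav
          · exact hrav) h9
        refine ⟨N', ?_⟩
        have heq : z' ||| (za ||| (bit m ||| bit r)) = z' ||| bit m ||| bit r ||| za := by
          apply Nat.eq_of_testBit_eq
          intro i
          simp only [Nat.testBit_or]
          cases z'.testBit i <;> cases za.testBit i <;> cases (bit m).testBit i <;>
            cases (bit r).testBit i <;> rfl
        rw [heq]
        exact hN'
    | false =>
      rw [h3] at H
      simp only [cond_false] at H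
      cases h2 : Nat.beq (Nat.land c 3) 2 with
      | true =>
        rw [h2] at H
        simp only [cond_true] at H
        have ho : Nat.mod (Nat.shiftRight c 18) 8 < 8 := Nat.mod_lt _ (by norm_num)
        generalize Nat.mod (Nat.shiftRight c 18) 8 = o at H ho
        generalize Nat.mod (Nat.shiftRight c 21) 256 = a at H
        simp only [Bool.and_eq_true] at H
        obtain ⟨⟨⟨h4, h6⟩, h7⟩, h8⟩ := H
        have ha : a % 16 ≤ maxCol o := Nat.le_of_ble_eq_true h6
        refine close 1 (bit m) _ c' (fun i hi => sub_spec h4 i hi) (osit_win ho ha h7) ?_ h8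
        show I &&& (za ||| bit m) = _
        rw [Nat.or_comm]
      | false =>
        rw [h2] at H
        simp only [cond_false] at H
        cases h1 : Nat.beq (Nat.land c 3) 1 with
        | true =>
          rw [h1] at H
          simp only [cond_true] at H
          generalize Nat.mod (Nat.shiftRight c 10) 524288 = k at H
          simp only [Bool.and_eq_true] at H
          obtain ⟨⟨⟨⟨h4, h5⟩, h6⟩, h7⟩, h8⟩ := H
          have hk : k < s := Nat.le_of_ble_eq_true h5
          obtain ⟨N, hN⟩ := hg k hk
          generalize ex (g k) = x' at h6 hN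
          generalize ey (g k) = y' at h7 h8 hN
          have hmav : av.testBit m = true := sub_spec h4 m (testBit_bit_self m)
          have hxor : ∀ i, (av ^^^ bit m).testBit i = true → av.testBit i = true ∧ i ≠ m := by
            intro i hi
            rw [Nat.testBit_xor, testBit_bit] at hi
            by_cases him : m = i
            · subst him
              rw [hmav] at hi
              simp at hi
            · simp [him] at hi
              exact ⟨hi, fun h => him h.symm⟩
          have hy' : ∀ i, y'.testBit i = true → av.testBit i = true ∧ i ≠ m :=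
            fun i hi => hxor i (sub_spec h7 i hi)
          have hmy : y'.testBit m = false := by
            by_contra h
            have h' : y'.testBit m = true := by simpa using h
            exact (hy' m h').2 rfl
          refine close (N + 1) (y' ||| bit m) _ c' ?_
            (osit_quiet (fun i hi => sub_spec h6 i hi) hmy hN) ?_ h8
          · intro i hi
            rw [Nat.testBit_or, testBit_bit] at hi
            simp only [Bool.or_eq_true, decide_eq_true_eq] at hi
            rcases hi with hi | rfl
            · exact (hy' i hi).1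
            · exact hmav
          · show I &&& (za ||| bit m ||| y') = _
            congr 1
            apply Nat.eq_of_testBit_eq
            intro i
            simp only [Nat.testBit_or]
            cases y'.testBit i <;> cases za.testBit i <;> cases (bit m).testBit i <;> rfl
        | false =>
          rw [h1] at H
          simp only [cond_false] at H
          have hI : I = 0 := Nat.eq_of_beq_eq_true H
          subst hI
          exact ⟨0, [], by simp, by simp⟩

theorem checkEntry_sound (g : ℕ → ℕ) (s : ℕ)
    (hg : ∀ k < s, ∃ N, BSit N (ex (g k)) (ey (g k))) (H : checkEntry g s = true) :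
    ∃ N, BSit N (ex (g s)) (ey (g s)) := by
  unfold checkEntry at H
  have hy : ∀ i, (ey (g s)).testBit i = true → i < 256 := by
    intro i hi
    by_contra hlt
    have h1 : ey (g s) < 2 ^ 256 := by
      rw [← W_eq]
      exact Nat.mod_lt _ (by norm_num [W])
    have h2 : (ey (g s)).testBit i = false :=
      Nat.testBit_lt_two_pow (lt_of_lt_of_le h1 (Nat.pow_le_pow_right (by norm_num) (by omega)))
    rw [hi] at h2
    exact absurd h2 (by decide)
  generalize ex (g s) = x0 at H
  generalize ey (g s) = y0 at H hy
  obtain ⟨N, zs, hzs, hI⟩ := go_sound g s x0 y0 hg _ _ _ _ _ _ (fun i h => h)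
    (fun i h => by simp at h) (fun N z _ hz => ⟨N, by simpa using hz⟩) H
  have hI' : ∀ i, i < 256 → ∃ z ∈ zs, z.testBit i = false := by
    intro i hi
    refine hI i ?_
    rw [W_eq, Nat.testBit_two_pow_sub_one]
    simpa using hi
  refine ⟨N, ?_⟩
  intro e he M B h1 h2 b hb hb'
  obtain ⟨z, hz, hzb⟩ : ∃ z ∈ zs, ∀ i, z.testBit i = true → e i ≠ b := by
    by_cases hbe : ∃ i, i < 256 ∧ e i = b
    · obtain ⟨i, hi, rfl⟩ := hbe
      obtain ⟨z, hz, hz0⟩ := hI' i hi
      refine ⟨z, hz, ?_⟩
      intro j hj hje
      have := he.injective hje
      subst this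
      rw [hj] at hz0
      exact absurd hz0 (by decide)
    · obtain ⟨z, hz, -⟩ := hI' 0 (by norm_num)
      refine ⟨z, hz, ?_⟩
      intro j hj hje
      exact hbe ⟨j, hy j ((hzs z hz).1 j hj), hje⟩
  refine (hzs z hz).2 e he M (insert b B) h1 ?_
  intro i hi
  have h3 := h2 i ((hzs z hz).1 i hi)
  simp only [Set.mem_insert_iff, not_or]
  exact ⟨h3.1, hzb i hi, h3.2⟩

theorem checkRange_spec (g : ℕ → ℕ) : ∀ n s, checkRange g n s = true →
    ∀ k, s ≤ k → k < s + n → checkEntry g k = true := by
  intro n
  induction n with
  | zero => intro s _ k h1 h2; omega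
  | succ n ih =>
    intro s H k h1 h2
    simp only [checkRange, Bool.and_eq_true] at H
    rcases Nat.eq_or_lt_of_le h1 with rfl | h
    · exact H.1
    · exact ih (s + 1) H.2 k h (by omega)

theorem table_sound (g : ℕ → ℕ) (T : ℕ) (H : ∀ k < T, checkEntry g k = true) :
    ∀ k < T, ∃ N, BSit N (ex (g k)) (ey (g k)) := by
  intro k
  induction k using Nat.strong_induction_on with
  | _ k ih =>
    intro hk
    exact checkEntry_sound g k (fun j hj => ih j hj (by omega)) (H k hk)

end Vale.Agent.P062
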