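/-!
# P062: the table checker

Computational definitions only; the file imports nothing.
-/

namespace Vale.Agent.P062

/-- The largest admissible column of the anchor for orientation `o`. -/
def maxCol (o : Nat) : Nat := cond (Nat.ble 4 o) 14 11

/-- The bit masks of the eight orientations, packed in blocks of `80` bits. -/
def baseTab : Nat := 139236762573348693764139365986851134282518880700920975707932553867914952678343453420108926085966613301534537469327776265230636455127759311378800415878884713754394820489768123666626791342095

/-- The bit mask of orientation `o`. -/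
def base (o : Nat) : Nat := Nat.mod (Nat.shiftRight baseTab (Nat.mul 80 o)) (Nat.pow 2 80)

/-- All bits of `a` are bits of `b`. -/
def sub (a b : Nat) : Bool := Nat.beq (Nat.land a b) a

/-- The bit `m`. -/
def bit (m : Nat) : Nat := Nat.shiftLeft 1 m

/-- A table of natural numbers. -/
inductive Tree : Type
  | leaf : Nat → Tree
  | node : Tree → Tree → Tree

/-- The entry number `k` of a table of depth `d`. -/
def Tree.get : Tree → Nat → Nat → Nat
  | .leaf v, _, _ => v
  | .node _ _, 0, _ => 0
  | .node l r, d + 1, k =>
    cond (Nat.beq (Nat.land (Nat.shiftRight k d) 1) 0) (l.get d k) (r.get d k)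

/-- `2 ^ 256`. -/
def W : Nat := 115792089237316195423570985008687907853269984665640564039457584007913129639936

/-- The Maker cells of an entry. -/
def ex (v : Nat) : Nat := Nat.mod v W

/-- The free cells of an entry. -/
def ey (v : Nat) : Nat := Nat.mod (Nat.shiftRight v 256) W

/-- The responses of an entry. -/
def ec (v : Nat) : Nat := Nat.shiftRight v 512

/-- Check one response list. `g` is the table, `s` the number of the entry. -/
def go (g : Nat → Nat) (s x0 y0 : Nat) : Nat → Nat → Nat → Nat → Nat → Nat → Bool
  | 0, _, _, _, _, _ => false
  | f + 1, c, x, av, za, I =>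
    let t := Nat.land c 3
    let m := Nat.mod (Nat.shiftRight c 2) 256
    let bm := bit m
    let xm := Nat.lor x bm
    cond (Nat.beq t 3)
      (let r := Nat.mod (Nat.shiftRight c 10) 256
       let br := bit r
       let o := Nat.mod (Nat.shiftRight c 18) 8
       let a := Nat.mod (Nat.shiftRight c 21) 256
       let mr := Nat.lor bm br
       sub mr av && (!(Nat.beq m r)) && Nat.ble (Nat.mod a 16) (maxCol o) &&
         sub (Nat.shiftLeft (base o) a) (Nat.lor xm br) &&
         go g s x0 y0 f (Nat.shiftRight c 29) xm (Nat.xor av mr) (Nat.lor za mr) I)
      (cond (Nat.beq t 2)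
        (let o := Nat.mod (Nat.shiftRight c 18) 8
         let a := Nat.mod (Nat.shiftRight c 21) 256
         sub bm av && Nat.ble (Nat.mod a 16) (maxCol o) &&
           sub (Nat.shiftLeft (base o) a) xm &&
           go g s x0 y0 f (Nat.shiftRight c 29) x0 y0 0 (Nat.land I (Nat.lor za bm)))
        (cond (Nat.beq t 1)
          (let k := Nat.mod (Nat.shiftRight c 10) 524288
           let v := g k
           let av' := Nat.xor av bm
           sub bm av && Nat.ble (Nat.succ k) s && sub (ex v) xm && sub (ey v) av' &&
             go g s x0 y0 f (Nat.shiftRight c 29) x0 y0 0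
               (Nat.land I (Nat.lor (Nat.lor za bm) (ey v))))
          (Nat.beq I 0)))

/-- Check entry number `s`. -/
def checkEntry (g : Nat → Nat) (s : Nat) : Bool :=
  go g s (ex (g s)) (ey (g s)) 4096 (ec (g s)) (ex (g s)) (ey (g s)) 0 (W - 1)

/-- Check the `n` entries from number `s` on. -/
def checkRange (g : Nat → Nat) : Nat → Nat → Bool
  | 0, _ => true
  | n + 1, s => checkEntry g s && checkRange g n (Nat.succ s)

end Vale.Agent.P062
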