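import Vale.Agent.Lib.P062.Core

/-!
# P062: the cover check

Computational definitions only.
-/

namespace Vale.Agent.P062

/-- The eight symmetries of the grid fixing the origin. -/
def symP (g : Nat) (p : Int × Int) : Int × Int :=
  match g with
  | 0 => (p.1, p.2)
  | 1 => (-p.1, p.2)
  | 2 => (p.1, -p.2)
  | 3 => (-p.1, -p.2)
  | 4 => (p.2, p.1)
  | 5 => (-p.2, p.1)
  | 6 => (p.2, -p.1)
  | _ => (-p.2, -p.1)

/-- Whether the cell `p` (relative to cell number `119`) is in the mask `z`. -/
def inMask (z : Nat) (p : Int × Int) : Bool :=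
  decide (-7 ≤ p.1) && decide (p.1 ≤ 8) && decide (-7 ≤ p.2) && decide (p.2 ≤ 8) &&
    Nat.testBit z ((p.1 + 7).toNat + 16 * (p.2 + 7).toNat)

/-- Some root avoids `b` in some frame. -/
def avoided (zs : List Nat) (b : Int × Int) : Bool :=
  zs.any fun z => (List.range 8).any fun g => !inMask z (symP g b)

/-- The free sets of the roots. -/
def rootZs (g : Nat → Nat) (roots : List (Nat × Nat)) : List Nat :=
  roots.map fun r => Nat.lor (ey (g r.1)) (bit r.2)

/-- The roots are admissible: the Maker cells are cell number `119` and the second claim. -/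
def rootsOk (g : Nat → Nat) (T : Nat) (roots : List (Nat × Nat)) : Bool :=
  roots.all fun r => Nat.ble (Nat.succ r.1) T && sub (ex (g r.1)) (Nat.lor (bit 119) (bit r.2)) &&
    !(Nat.testBit (ey (g r.1)) r.2) && Nat.ble (Nat.succ r.2) 256 &&
    !(Nat.testBit (Nat.lor (ey (g r.1)) (bit r.2)) 119)

/-- All cells `b` with coordinates between `-8` and `8` other than `(0, 0)` and those in the
list `exc` are avoided. -/
def coverOk (zs : List Nat) (exc : List (Int × Int)) : Bool :=
  (List.range 17).all fun i => (List.range 17).all fun j =>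
    let b : Int × Int := ((i : Int) - 8, (j : Int) - 8)
    (b == (0, 0)) || exc.contains b || avoided zs b

end Vale.Agent.P062
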