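import Vale.Agent.Lib.P062.Checker
import Vale.Agent.Lib.P062.CoreCover

/-!
# P062: from the roots of a checked table to winning positions after one round
-/

namespace Vale.Agent.P062

theorem exists_sym (g : ℕ) : ∃ R ∈ signedPermutationMatrices, ∀ p : Cell, symP g (act R p) = p := by
  by_cases h : g < 7
  · interval_cases g
    · exact ⟨!![1, 0; 0, 1], by decide, fun p => by simp [symP, act]⟩
    · exact ⟨!![-1, 0; 0, 1], by decide, fun p => by simp [symP, act]⟩
    · exact ⟨!![1, 0; 0, -1], by decide, fun p => by simp [symP, act]⟩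
    · exact ⟨!![-1, 0; 0, -1], by decide, fun p => by simp [symP, act]⟩
    · exact ⟨!![0, 1; 1, 0], by decide, fun p => by simp [symP, act]⟩
    · exact ⟨!![0, 1; -1, 0], by decide, fun p => by simp [symP, act]⟩
    · exact ⟨!![0, -1; 1, 0], by decide, fun p => by simp [symP, act]⟩
  · refine ⟨!![0, -1; -1, 0], by decide, fun p => ?_⟩
    have : symP g (act !![0, -1; -1, 0] p) =
        (-(act !![0, -1; -1, 0] p).2, -(act !![0, -1; -1, 0] p).1) := by
      match g, h with
      | 0, h => exact absurd (by norm_num) h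
      | 1, h => exact absurd (by norm_num) h
      | 2, h => exact absurd (by norm_num) h
      | 3, h => exact absurd (by norm_num) h
      | 4, h => exact absurd (by norm_num) h
      | 5, h => exact absurd (by norm_num) h
      | 6, h => exact absurd (by norm_num) h
      | n + 7, _ => rfl
    rw [this]
    simp [act]

/-- The frame with cell number `119` at the origin. -/
def originFrame (R : Matrix (Fin 2) (Fin 2) ℤ) (i : ℕ) : Cell :=
  act R (-7, -7) + act R (cellOf i)

theorem originFrame_isFrame {R : Matrix (Fin 2) (Fin 2) ℤ} (hR : R ∈ signedPermutationMatrices) :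
    IsFrame (originFrame R) := ⟨_, R, hR, fun _ => rfl⟩

theorem originFrame_119 (R : Matrix (Fin 2) (Fin 2) ℤ) : originFrame R 119 = (0, 0) := by
  rw [originFrame, ← act_add]
  have : ((-7, -7) : Cell) + cellOf 119 = (0, 0) := by decide
  rw [this]
  simp [act]

/-- If a cell avoids the mask, it is not in the image of the mask. -/
theorem not_image_of_not_inMask {z g : ℕ} {b : Cell} {R : Matrix (Fin 2) (Fin 2) ℤ}
    (hR : ∀ p : Cell, symP g (act R p) = p) (hz : z < 2 ^ 256)
    (h : inMask z (symP g b) = false) (i : ℕ) (hi : z.testBit i = true) :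
    originFrame R i ≠ b := by
  intro hb
  have hi256 : i < 256 := by
    by_contra hlt
    have h2 : z.testBit i = false :=
      Nat.testBit_lt_two_pow (lt_of_lt_of_le hz (Nat.pow_le_pow_right (by norm_num) (by omega)))
    rw [hi] at h2
    exact absurd h2 (by decide)
  have h1 : symP g b = ((-7, -7) : Cell) + cellOf i := by
    rw [← hb, originFrame, ← act_add, hR]
  rw [h1] at h
  have h3 : ((-7, -7) : Cell) + cellOf i = (((i % 16 : ℕ) : ℤ) - 7, ((i / 16 : ℕ) : ℤ) - 7) := by
    simp only [cellOf, Prod.mk_add_mk]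
    ext <;> simp <;> ring
  rw [h3] at h
  have e1 : ((((i % 16 : ℕ) : ℤ) - 7 + 7).toNat + 16 * (((i / 16 : ℕ) : ℤ) - 7 + 7).toNat) = i := by
    omega
  simp only [inMask, e1, hi, Bool.and_true] at h
  have c1 : decide (-7 ≤ ((i % 16 : ℕ) : ℤ) - 7) = true := by
    rw [decide_eq_true_eq]; omega
  have c2 : decide (((i % 16 : ℕ) : ℤ) - 7 ≤ 8) = true := by
    rw [decide_eq_true_eq]; omega
  have c3 : decide (-7 ≤ ((i / 16 : ℕ) : ℤ) - 7) = true := by
    rw [decide_eq_true_eq]; omega
  have c4 : decide (((i / 16 : ℕ) : ℤ) - 7 ≤ 8) = true := by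
    rw [decide_eq_true_eq]; omega
  rw [c1, c2, c3, c4] at h
  exact absurd h (by decide)

theorem inMask_far (z g : ℕ) (b : Cell) (hb : b.1 < -8 ∨ 8 < b.1 ∨ b.2 < -8 ∨ 8 < b.2) :
    inMask z (symP g b) = false := by
  obtain ⟨b1, b2⟩ := b
  simp only at hb
  have key : ∀ p : Cell, (p = (b1, b2) ∨ p = (-b1, b2) ∨ p = (b1, -b2) ∨ p = (-b1, -b2) ∨
      p = (b2, b1) ∨ p = (-b2, b1) ∨ p = (b2, -b1) ∨ p = (-b2, -b1)) → inMask z p = false := by
    intro p hp
    by_contra h
    have h' : inMask z p = true := by simpa using h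
    simp only [inMask, Bool.and_eq_true, decide_eq_true_eq] at h'
    obtain ⟨⟨⟨⟨h1, h2⟩, h3⟩, h4⟩, -⟩ := h'
    rcases hp with rfl | rfl | rfl | rfl | rfl | rfl | rfl | rfl <;> simp only at h1 h2 h3 h4 <;>
      omega
  apply key
  match g with
  | 0 => simp [symP]
  | 1 => simp [symP]
  | 2 => simp [symP]
  | 3 => simp [symP]
  | 4 => simp [symP]
  | 5 => simp [symP]
  | 6 => simp [symP]
  | n + 7 => simp [symP]

theorem avoided_wins (g : ℕ → ℕ) (T : ℕ) (roots : List (ℕ × ℕ))
    (hT : ∀ k < T, ∃ N, BSit N (ex (g k)) (ey (g k))) (hr : rootsOk g T roots = true)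
    (b : Cell) (hb : b ≠ (0, 0)) (h : avoided (rootZs g roots) b = true) :
    ∃ N, MWins N {(0, 0)} {b} := by
  simp only [avoided, rootZs, List.any_eq_true, List.mem_map] at h
  obtain ⟨z, ⟨⟨k, m⟩, hk, rfl⟩, s, -, hs⟩ := h
  rw [rootsOk, List.all_eq_true] at hr
  have h1 := hr _ hk
  simp only [Bool.and_eq_true] at h1 hs
  obtain ⟨⟨⟨⟨h2, h3⟩, h4⟩, h5⟩, h6⟩ := h1
  have hkT : k < T := Nat.le_of_ble_eq_true h2
  have hm : m < 256 := Nat.le_of_ble_eq_true h5
  obtain ⟨N, hN⟩ := hT k hkT
  have hy : ey (g k) < 2 ^ 256 := by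
    rw [← W_eq]
    exact Nat.mod_lt _ (by norm_num [W])
  generalize ex (g k) = x' at h3 hN
  generalize ey (g k) = y' at h4 hN hs hy h6
  have hmy : y'.testBit m = false := by simpa using h4
  have hO : OSit (N + 1) (bit 119) (y' ||| bit m) :=
    osit_quiet (fun i hi => sub_spec h3 i hi) hmy hN
  obtain ⟨R, hR, hRs⟩ := exists_sym s
  have hzlt : (y' ||| bit m) < 2 ^ 256 := by
    apply Nat.or_lt_two_pow hy
    have : bit m = 2 ^ m := by
      show 1 <<< m = 2 ^ m
      rw [Nat.one_shiftLeft]
    rw [this]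
    exact Nat.pow_lt_pow_right (by norm_num) hm
  have hs' : inMask (y' ||| bit m) (symP s b) = false := by
    have : (!inMask (Nat.lor y' (bit m)) (symP s b)) = true := hs
    simpa using this
  have himg := not_image_of_not_inMask hRs hzlt hs'
  have h119 : (y' ||| bit m).testBit 119 = false := by
    have : (!(Nat.testBit (Nat.lor y' (bit m)) 119)) = true := h6
    simpa using this
  refine ⟨N + 1, hO (originFrame R) (originFrame_isFrame hR) {(0, 0)} {b} ?_ ?_⟩
  · intro i hi
    rw [testBit_bit] at hi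
    simp only [decide_eq_true_eq] at hi
    subst hi
    rw [originFrame_119]
    exact Set.mem_singleton _
  · intro i hi
    refine ⟨?_, ?_⟩
    · rw [Set.mem_singleton_iff]
      intro h0
      rw [← originFrame_119 R] at h0
      have := (originFrame_isFrame hR).injective h0
      subst this
      rw [hi] at h119
      exact absurd h119 (by decide)
    · rw [Set.mem_singleton_iff]
      exact himg i hi

theorem cover_wins (g : ℕ → ℕ) (T : ℕ) (roots : List (ℕ × ℕ)) (exc : List Cell)
    (hT : ∀ k < T, ∃ N, BSit N (ex (g k)) (ey (g k))) (hr : rootsOk g T roots = true)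
    (hne : roots ≠ []) (hc : coverOk (rootZs g roots) exc = true)
    (b : Cell) (hb : b ≠ (0, 0)) (hexc : b ∉ exc) :
    ∃ N, MWins N {(0, 0)} {b} := by
  refine avoided_wins g T roots hT hr b hb ?_
  by_cases hfar : b.1 < -8 ∨ 8 < b.1 ∨ b.2 < -8 ∨ 8 < b.2
  · simp only [avoided, rootZs, List.any_eq_true, List.mem_map]
    obtain ⟨r, l, rfl⟩ := List.exists_cons_of_ne_nil hne
    refine ⟨_, ⟨r, List.mem_cons_self, rfl⟩, 0, by simp, ?_⟩
    rw [inMask_far _ _ _ hfar]
    rfl
  · simp only [not_or, not_lt] at hfar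
    obtain ⟨f1, f2, f3, f4⟩ := hfar
    rw [coverOk, List.all_eq_true] at hc
    have h1 := hc (b.1 + 8).toNat (by rw [List.mem_range]; omega)
    rw [List.all_eq_true] at h1
    have h2 := h1 (b.2 + 8).toNat (by rw [List.mem_range]; omega)
    have e1 : (((b.1 + 8).toNat : ℕ) : ℤ) - 8 = b.1 := by omega
    have e2 : (((b.2 + 8).toNat : ℕ) : ℤ) - 8 = b.2 := by omega
    simp only [e1, e2] at h2
    simp only [Prod.mk.eta, Bool.or_eq_true, beq_iff_eq, List.contains_iff_mem] at h2
    rcases h2 with (h2 | h2) | h2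
    · exact absurd h2 hb
    · exact absurd h2 hexc
    · exact h2

end Vale.Agent.P062
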