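import Mathlib

/-!
# Problem P062: the achievement game for Snaky in the plane

Definitions used by the statements of the hand-ins.
-/

namespace Vale.Agent.P062

/-- Cells of the square grid, indexed by their lower-left corner. -/
abbrev Cell : Type := ℤ × ℤ

/-- The hexomino Snaky. -/
def snaky : Finset Cell := {(0, 0), (1, 0), (2, 0), (3, 0), (3, 1), (4, 1)}

/-- The eight `2 × 2` signed permutation matrices. -/
def signedPermutationMatrices : Finset (Matrix (Fin 2) (Fin 2) ℤ) :=
  {!![1, 0; 0, 1], !![1, 0; 0, -1], !![-1, 0; 0, 1], !![-1, 0; 0, -1],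
   !![0, 1; 1, 0], !![0, 1; -1, 0], !![0, -1; 1, 0], !![0, -1; -1, 0]}

/-- The action of an integer `2 × 2` matrix on cells. -/
def act (R : Matrix (Fin 2) (Fin 2) ℤ) (p : Cell) : Cell :=
  (R 0 0 * p.1 + R 0 1 * p.2, R 1 0 * p.1 + R 1 1 * p.2)

/-- An allowed copy of Snaky is `t + R(S)` with `t` a translation vector and `R` one of the
eight signed permutation matrices. -/
def IsAllowedCopy (C : Finset Cell) : Prop :=
  ∃ t : Cell, ∃ R ∈ signedPermutationMatrices, C = snaky.image fun p => t + act R p

/-- A strategy for Maker (who moves first): it says which cell Maker claims next, given the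
list of all cells claimed by Breaker so far, in the order of play. -/
abbrev MakerStrategy : Type := List Cell → Cell

/-- Maker's claim in round `n` (`n = 0, 1, 2, …`), when Maker follows the strategy `σ` and
Breaker's claims in rounds `0, 1, 2, …` are `b 0, b 1, b 2, …`. In each round Maker claims a
cell first and then Breaker does. -/
def makerClaim (σ : MakerStrategy) (b : ℕ → Cell) (n : ℕ) : Cell :=
  σ ((List.range n).map b)

/-- The cells owned by Maker after its first `n` claims. -/
def makerCells (σ : MakerStrategy) (b : ℕ → Cell) (n : ℕ) : Set Cell :=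
  {c | ∃ i, i < n ∧ c = makerClaim σ b i}

/-- The cells owned by Breaker after its first `n` claims. -/
def breakerCells (b : ℕ → Cell) (n : ℕ) : Set Cell :=
  {c | ∃ i, i < n ∧ c = b i}

/-- Maker's claim in round `n` is legal: the cell is still unclaimed. -/
def MakerLegal (σ : MakerStrategy) (b : ℕ → Cell) (n : ℕ) : Prop :=
  makerClaim σ b n ∉ makerCells σ b n ∧ makerClaim σ b n ∉ breakerCells b n

/-- Breaker's claim in round `n` (made after Maker's claim in round `n`) is legal: the cell is
still unclaimed. -/
def BreakerLegal (σ : MakerStrategy) (b : ℕ → Cell) (n : ℕ) : Prop :=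
  b n ∉ makerCells σ b (n + 1) ∧ b n ∉ breakerCells b n

/-- After its first `n` claims Maker owns every cell of some allowed copy of Snaky. -/
def MakerOwnsCopy (σ : MakerStrategy) (b : ℕ → Cell) (n : ℕ) : Prop :=
  ∃ C : Finset Cell, IsAllowedCopy C ∧ ∀ c ∈ C, c ∈ makerCells σ b n

/-- `σ` is a winning strategy for Maker in the achievement game for Snaky on the initially
empty board `ℤ²` with Maker moving first and no handicap: whatever legal claims Breaker makes,
after some finite number `n` of claims, all of them legal, Maker owns an allowed copy. -/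
def IsWinningStrategy (σ : MakerStrategy) : Prop :=
  ∀ b : ℕ → Cell, (∀ n, BreakerLegal σ b n) →
    ∃ n, (∀ i < n, MakerLegal σ b i) ∧ MakerOwnsCopy σ b n

end Vale.Agent.P062
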