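import Vale.Agent.Lib.P062.Theory

/-!
# P062: winning positions and the extraction of a strategy
-/

namespace Vale.Agent.P062

/-- Maker, to move and owning `M` while Breaker owns `B`, can complete an allowed copy with at
most `n` further claims. -/
def MWins : ℕ → Set Cell → Set Cell → Prop
  | 0, _, _ => False
  | n + 1, M, B => ∃ m, m ∉ M ∧ m ∉ B ∧
      ((∃ C, IsAllowedCopy C ∧ ∀ c ∈ C, c ∈ insert m M) ∨
        ∀ b, b ∉ insert m M → b ∉ B → MWins n (insert m M) (insert b B))

theorem MWins.succ {n : ℕ} : ∀ {M B : Set Cell}, MWins n M B → MWins (n + 1) M B := by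
  induction n with
  | zero => intro M B h; exact h.elim
  | succ n ih =>
    intro M B h
    obtain ⟨m, h1, h2, h3⟩ := h
    refine ⟨m, h1, h2, ?_⟩
    rcases h3 with h3 | h3
    · exact Or.inl h3
    · exact Or.inr fun b hb hb' => ih (h3 b hb hb')

theorem MWins.mono {n k : ℕ} (hnk : n ≤ k) {M B : Set Cell} (h : MWins n M B) : MWins k M B := by
  induction hnk with
  | refl => exact h
  | step _ ih => exact ih.succ

open Classical in
theorem step_exists {M B : Set Cell} (h : ∃ n, MWins n M B) :
    ∃ m, m ∉ M ∧ m ∉ B ∧
      ((∃ C, IsAllowedCopy C ∧ ∀ c ∈ C, c ∈ insert m M) ∨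
        ∃ k, k < Nat.find h ∧
          ∀ b, b ∉ insert m M → b ∉ B → MWins k (insert m M) (insert b B)) := by
  have hs := Nat.find_spec h
  revert hs
  generalize Nat.find h = n
  intro hs
  cases n with
  | zero => exact hs.elim
  | succ n =>
    obtain ⟨m, h1, h2, h3⟩ := hs
    refine ⟨m, h1, h2, ?_⟩
    rcases h3 with h3 | h3
    · exact Or.inl h3
    · exact Or.inr ⟨n, Nat.lt_succ_self n, h3⟩

open Classical in
/-- The claim recommended in the position `(M, B)`. -/
noncomputable def pick (M B : Set Cell) : Cell :=
  if h : ∃ n, MWins n M B then (step_exists h).choose else (0, 0)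

open Classical in
/-- The claim recommended in the position `s`, the first claim being `(0, 0)`. -/
noncomputable def move (s : Set Cell × Set Cell) : Cell :=
  if s.1 = ∅ then (0, 0) else pick s.1 s.2

/-- The position after one more round. -/
noncomputable def advance (s : Set Cell × Set Cell) (b : Cell) : Set Cell × Set Cell :=
  (insert (move s) s.1, insert b s.2)

/-- The strategy. -/
noncomputable def strat : MakerStrategy := fun l => move (l.foldl advance (∅, ∅))

/-- The position after `n` rounds. -/
noncomputable def posn (b : ℕ → Cell) (n : ℕ) : Set Cell × Set Cell :=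
  ((List.range n).map b).foldl advance (∅, ∅)

theorem posn_succ (b : ℕ → Cell) (n : ℕ) : posn b (n + 1) = advance (posn b n) (b n) := by
  simp [posn, List.range_succ, List.map_append, List.foldl_append]

theorem makerClaim_strat (b : ℕ → Cell) (n : ℕ) : makerClaim strat b n = move (posn b n) := rfl

theorem posn_eq (b : ℕ → Cell) (n : ℕ) :
    posn b n = (makerCells strat b n, breakerCells b n) := by
  induction n with
  | zero =>
    ext c <;> simp [posn, makerCells, breakerCells]
  | succ n ih =>
    rw [posn_succ]
    have h1 : move (posn b n) = makerClaim strat b n := rfl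
    unfold advance
    rw [h1, ih]
    refine Prod.ext ?_ ?_
    · ext c
      simp only [Set.mem_insert_iff, makerCells, Set.mem_ofPred_eq]
      constructor
      · rintro (rfl | ⟨i, hi, rfl⟩)
        · exact ⟨n, Nat.lt_succ_self n, rfl⟩
        · exact ⟨i, Nat.lt_succ_of_lt hi, rfl⟩
      · rintro ⟨i, hi, rfl⟩
        rcases Nat.lt_succ_iff_lt_or_eq.1 hi with h | rfl
        · exact Or.inr ⟨i, h, rfl⟩
        · exact Or.inl rfl
    · ext c
      simp only [Set.mem_insert_iff, breakerCells, Set.mem_ofPred_eq]
      constructor
      · rintro (rfl | ⟨i, hi, rfl⟩)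
        · exact ⟨n, Nat.lt_succ_self n, rfl⟩
        · exact ⟨i, Nat.lt_succ_of_lt hi, rfl⟩
      · rintro ⟨i, hi, rfl⟩
        rcases Nat.lt_succ_iff_lt_or_eq.1 hi with h | rfl
        · exact Or.inr ⟨i, h, rfl⟩
        · exact Or.inl rfl

theorem first_claim (b : ℕ → Cell) : makerClaim strat b 0 = (0, 0) := by
  simp [makerClaim_strat, posn, move]

theorem play_wins (b : ℕ → Cell) (hb : ∀ n, BreakerLegal strat b n) (N : ℕ) :
    ∀ n, 1 ≤ n → (∀ i < n, MakerLegal strat b i) →
      MWins N (makerCells strat b n) (breakerCells b n) →
      ∃ k, (∀ i < k, MakerLegal strat b i) ∧ MakerOwnsCopy strat b k := by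
  classical
  induction N using Nat.strong_induction_on with
  | _ N ih =>
    intro n hn hleg hwin
    have hex : ∃ k, MWins k (makerCells strat b n) (breakerCells b n) := ⟨N, hwin⟩
    have hspec := (step_exists hex).choose_spec
    have hne : makerCells strat b n ≠ ∅ := by
      have : makerClaim strat b 0 ∈ makerCells strat b n := ⟨0, hn, rfl⟩
      exact Set.nonempty_iff_ne_empty.1 ⟨_, this⟩
    have hm : makerClaim strat b n = (step_exists hex).choose := by
      rw [makerClaim_strat, posn_eq]
      simp only [move, if_neg hne, pick, dif_pos hex]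
    rw [← hm] at hspec
    have hins : insert (makerClaim strat b n) (makerCells strat b n) =
        makerCells strat b (n + 1) := by
      have h1 := congrArg Prod.fst (posn_succ b n)
      rw [posn_eq, posn_eq] at h1
      simp only [advance] at h1
      rw [h1, ← posn_eq, ← makerClaim_strat]
    have hinsB : insert (b n) (breakerCells b n) = breakerCells b (n + 1) := by
      have h1 := congrArg Prod.snd (posn_succ b n)
      rw [posn_eq, posn_eq] at h1
      simp only [advance] at h1
      exact h1.symm
    obtain ⟨h1, h2, h3⟩ := hspec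
    have hleg' : ∀ i < n + 1, MakerLegal strat b i := by
      intro i hi
      rcases Nat.lt_succ_iff_lt_or_eq.1 hi with h | rfl
      · exact hleg i h
      · exact ⟨h1, h2⟩
    rw [hins] at h3
    rcases h3 with ⟨C, hC, hCs⟩ | ⟨k, hk, h3⟩
    · exact ⟨n + 1, hleg', C, hC, hCs⟩
    · have hkN : k < N := lt_of_lt_of_le hk (Nat.find_le hwin)
      have h4 := h3 (b n) (hb n).1 (hb n).2
      rw [hinsB] at h4
      exact ih k hkN (n + 1) (by omega) hleg' h4

/-- The strategy wins every play in which the position after one round is winning. -/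
theorem strat_wins (b : ℕ → Cell) (hb : ∀ n, BreakerLegal strat b n)
    (h : ∃ N, MWins N {(0, 0)} {b 0}) :
    ∃ n, (∀ i < n, MakerLegal strat b i) ∧ MakerOwnsCopy strat b n := by
  obtain ⟨N, hN⟩ := h
  refine play_wins b hb N 1 le_rfl ?_ ?_
  · intro i hi
    obtain rfl : i = 0 := by omega
    constructor <;> simp [makerCells, breakerCells]
  · have h1 : makerCells strat b 1 = {(0, 0)} := by
      ext c
      simp only [makerCells, Set.mem_ofPred_eq, Set.mem_singleton_iff]
      constructor
      · rintro ⟨i, hi, rfl⟩
        obtain rfl : i = 0 := by omega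
        exact first_claim b
      · rintro rfl
        exact ⟨0, by omega, (first_claim b).symm⟩
    have h2 : breakerCells b 1 = {b 0} := by
      ext c
      simp only [breakerCells, Set.mem_ofPred_eq, Set.mem_singleton_iff]
      constructor
      · rintro ⟨i, hi, rfl⟩
        obtain rfl : i = 0 := by omega
        rfl
      · rintro rfl
        exact ⟨0, by omega, rfl⟩
    rw [h1, h2]
    exact hN

end Vale.Agent.P062
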