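import Vale.Agent.Lib.P062.Defs
import Vale.Agent.Lib.P062.Core

/-!
# P062: frames and the codes of allowed copies
-/

namespace Vale.Agent.P062

open Finset

/-! ## Signed permutation matrices and frames -/

theorem mul_mem {R R' : Matrix (Fin 2) (Fin 2) ℤ} (hR : R ∈ signedPermutationMatrices)
    (hR' : R' ∈ signedPermutationMatrices) : R * R' ∈ signedPermutationMatrices := by
  have h : ∀ R ∈ signedPermutationMatrices, ∀ R' ∈ signedPermutationMatrices,
      R * R' ∈ signedPermutationMatrices := by decide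
  exact h R hR R' hR'

theorem act_mul (R R' : Matrix (Fin 2) (Fin 2) ℤ) (p : Cell) : act (R * R') p = act R (act R' p) := by
  simp only [act, Matrix.mul_apply, Fin.sum_univ_two]
  ext <;> simp <;> ring

theorem act_add (R : Matrix (Fin 2) (Fin 2) ℤ) (p q : Cell) : act R (p + q) = act R p + act R q := by
  simp only [act]
  ext <;> simp <;> ring

theorem exists_inv {R : Matrix (Fin 2) (Fin 2) ℤ} (hR : R ∈ signedPermutationMatrices) :
    ∃ R' ∈ signedPermutationMatrices, R' * R = 1 := by
  have : ∀ R ∈ signedPermutationMatrices, ∃ R' ∈ signedPermutationMatrices, R' * R = 1 := by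
    decide
  exact this R hR

theorem act_injective {R : Matrix (Fin 2) (Fin 2) ℤ} (hR : R ∈ signedPermutationMatrices) :
    Function.Injective (act R) := by
  intro p q h
  obtain ⟨R', -, h1⟩ := exists_inv hR
  have h2 := congrArg (act R') h
  rw [← act_mul, ← act_mul, h1] at h2
  simpa [act] using h2

/-- Cell number `i` in the `16`-wide numbering. -/
def cellOf (i : ℕ) : Cell := (((i % 16 : ℕ) : ℤ), ((i / 16 : ℕ) : ℤ))

theorem cellOf_injective : Function.Injective cellOf := by
  intro i j h
  simp only [cellOf, Prod.mk.injEq, Nat.cast_inj] at h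
  omega

/-- A frame: an isometric placement of the numbered cells into the plane. -/
def IsFrame (e : ℕ → Cell) : Prop :=
  ∃ t : Cell, ∃ R ∈ signedPermutationMatrices, ∀ i, e i = t + act R (cellOf i)

theorem IsFrame.injective {e : ℕ → Cell} (he : IsFrame e) : Function.Injective e := by
  obtain ⟨t, R, hR, h⟩ := he
  intro i j hij
  rw [h, h] at hij
  exact cellOf_injective (act_injective hR (add_left_cancel hij))

/-! ## Codes of copies -/

/-- The cells of Snaky in a fixed order. -/
def snakyList : List Cell := [(0, 0), (1, 0), (2, 0), (3, 0), (3, 1), (4, 1)]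

theorem snakyList_toFinset : snakyList.toFinset = snaky := by decide

/-- Offsets of the six cells of the copy with orientation `o`. -/
def offs : ℕ → List ℕ
  | 0 => [0, 1, 2, 3, 19, 20]
  | 1 => [4, 3, 2, 1, 17, 16]
  | 2 => [16, 17, 18, 19, 3, 4]
  | 3 => [20, 19, 18, 17, 1, 0]
  | 4 => [0, 16, 32, 48, 49, 65]
  | 5 => [64, 48, 32, 16, 17, 1]
  | 6 => [1, 17, 33, 49, 48, 64]
  | 7 => [65, 49, 33, 17, 16, 0]
  | _ => []

theorem offs_testBit (o : ℕ) (ho : o < 8) (j : ℕ) (hj : j ∈ offs o) :
    (base o).testBit j = true := by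
  have h : ∀ o < 8, ∀ j ∈ offs o, (base o).testBit j = true := by decide +kernel
  exact h o ho j hj

theorem cellOf_add (a j dx dy : ℕ) (hj : j = dx + 16 * dy) (hd : a % 16 + dx ≤ 15) :
    cellOf (a + j) = ((((a % 16 : ℕ) : ℤ)) + dx, (((a / 16 : ℕ) : ℤ)) + dy) := by
  have h1 : (a + j) % 16 = a % 16 + dx := by omega
  have h2 : (a + j) / 16 = a / 16 + dy := by omega
  simp only [cellOf, h1, h2, Nat.cast_add]

theorem copy_list_0 (a : ℕ) (ha : a % 16 ≤ maxCol 0) :
    ∃ u : Cell, ∃ R' ∈ signedPermutationMatrices,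
      (offs 0).map (fun j => cellOf (a + j)) = snakyList.map fun p => u + act R' p := by
  have ha' : a % 16 ≤ 11 := ha
  refine ⟨(((a % 16 : ℕ) : ℤ), ((a / 16 : ℕ) : ℤ)), !![1, 0; 0, 1], by decide, ?_⟩
  simp only [offs, snakyList, List.map_cons, List.map_nil]
  rw [cellOf_add a 0 0 0 (by norm_num) (by omega)]
  rw [cellOf_add a 1 1 0 (by norm_num) (by omega)]
  rw [cellOf_add a 2 2 0 (by norm_num) (by omega)]
  rw [cellOf_add a 3 3 0 (by norm_num) (by omega)]
  rw [cellOf_add a 19 3 1 (by norm_num) (by omega)]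
  rw [cellOf_add a 20 4 1 (by norm_num) (by omega)]
  refine List.ext_getElem rfl ?_
  intro i h1 h2
  simp only [List.length_cons, List.length_nil] at h1
  interval_cases i <;> ext <;> simp [act] <;> omega

theorem copy_list_1 (a : ℕ) (ha : a % 16 ≤ maxCol 1) :
    ∃ u : Cell, ∃ R' ∈ signedPermutationMatrices,
      (offs 1).map (fun j => cellOf (a + j)) = snakyList.map fun p => u + act R' p := by
  have ha' : a % 16 ≤ 11 := ha
  refine ⟨(((a % 16 : ℕ) : ℤ) + 4, ((a / 16 : ℕ) : ℤ)), !![-1, 0; 0, 1], by decide, ?_⟩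
  simp only [offs, snakyList, List.map_cons, List.map_nil]
  rw [cellOf_add a 4 4 0 (by norm_num) (by omega)]
  rw [cellOf_add a 3 3 0 (by norm_num) (by omega)]
  rw [cellOf_add a 2 2 0 (by norm_num) (by omega)]
  rw [cellOf_add a 1 1 0 (by norm_num) (by omega)]
  rw [cellOf_add a 17 1 1 (by norm_num) (by omega)]
  rw [cellOf_add a 16 0 1 (by norm_num) (by omega)]
  refine List.ext_getElem rfl ?_
  intro i h1 h2
  simp only [List.length_cons, List.length_nil] at h1
  interval_cases i <;> ext <;> simp [act] <;> omega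

theorem copy_list_2 (a : ℕ) (ha : a % 16 ≤ maxCol 2) :
    ∃ u : Cell, ∃ R' ∈ signedPermutationMatrices,
      (offs 2).map (fun j => cellOf (a + j)) = snakyList.map fun p => u + act R' p := by
  have ha' : a % 16 ≤ 11 := ha
  refine ⟨(((a % 16 : ℕ) : ℤ), ((a / 16 : ℕ) : ℤ) + 1), !![1, 0; 0, -1], by decide, ?_⟩
  simp only [offs, snakyList, List.map_cons, List.map_nil]
  rw [cellOf_add a 16 0 1 (by norm_num) (by omega)]
  rw [cellOf_add a 17 1 1 (by norm_num) (by omega)]
  rw [cellOf_add a 18 2 1 (by norm_num) (by omega)]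
  rw [cellOf_add a 19 3 1 (by norm_num) (by omega)]
  rw [cellOf_add a 3 3 0 (by norm_num) (by omega)]
  rw [cellOf_add a 4 4 0 (by norm_num) (by omega)]
  refine List.ext_getElem rfl ?_
  intro i h1 h2
  simp only [List.length_cons, List.length_nil] at h1
  interval_cases i <;> ext <;> simp [act] <;> omega

theorem copy_list_3 (a : ℕ) (ha : a % 16 ≤ maxCol 3) :
    ∃ u : Cell, ∃ R' ∈ signedPermutationMatrices,
      (offs 3).map (fun j => cellOf (a + j)) = snakyList.map fun p => u + act R' p := by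
  have ha' : a % 16 ≤ 11 := ha
  refine ⟨(((a % 16 : ℕ) : ℤ) + 4, ((a / 16 : ℕ) : ℤ) + 1), !![-1, 0; 0, -1], by decide, ?_⟩
  simp only [offs, snakyList, List.map_cons, List.map_nil]
  rw [cellOf_add a 20 4 1 (by norm_num) (by omega)]
  rw [cellOf_add a 19 3 1 (by norm_num) (by omega)]
  rw [cellOf_add a 18 2 1 (by norm_num) (by omega)]
  rw [cellOf_add a 17 1 1 (by norm_num) (by omega)]
  rw [cellOf_add a 1 1 0 (by norm_num) (by omega)]
  rw [cellOf_add a 0 0 0 (by norm_num) (by omega)]
  refine List.ext_getElem rfl ?_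
  intro i h1 h2
  simp only [List.length_cons, List.length_nil] at h1
  interval_cases i <;> ext <;> simp [act] <;> omega

theorem copy_list_4 (a : ℕ) (ha : a % 16 ≤ maxCol 4) :
    ∃ u : Cell, ∃ R' ∈ signedPermutationMatrices,
      (offs 4).map (fun j => cellOf (a + j)) = snakyList.map fun p => u + act R' p := by
  have ha' : a % 16 ≤ 14 := ha
  refine ⟨(((a % 16 : ℕ) : ℤ), ((a / 16 : ℕ) : ℤ)), !![0, 1; 1, 0], by decide, ?_⟩
  simp only [offs, snakyList, List.map_cons, List.map_nil]
  rw [cellOf_add a 0 0 0 (by norm_num) (by omega)]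
  rw [cellOf_add a 16 0 1 (by norm_num) (by omega)]
  rw [cellOf_add a 32 0 2 (by norm_num) (by omega)]
  rw [cellOf_add a 48 0 3 (by norm_num) (by omega)]
  rw [cellOf_add a 49 1 3 (by norm_num) (by omega)]
  rw [cellOf_add a 65 1 4 (by norm_num) (by omega)]
  refine List.ext_getElem rfl ?_
  intro i h1 h2
  simp only [List.length_cons, List.length_nil] at h1
  interval_cases i <;> ext <;> simp [act] <;> omega

theorem copy_list_5 (a : ℕ) (ha : a % 16 ≤ maxCol 5) :
    ∃ u : Cell, ∃ R' ∈ signedPermutationMatrices,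
      (offs 5).map (fun j => cellOf (a + j)) = snakyList.map fun p => u + act R' p := by
  have ha' : a % 16 ≤ 14 := ha
  refine ⟨(((a % 16 : ℕ) : ℤ), ((a / 16 : ℕ) : ℤ) + 4), !![0, 1; -1, 0], by decide, ?_⟩
  simp only [offs, snakyList, List.map_cons, List.map_nil]
  rw [cellOf_add a 64 0 4 (by norm_num) (by omega)]
  rw [cellOf_add a 48 0 3 (by norm_num) (by omega)]
  rw [cellOf_add a 32 0 2 (by norm_num) (by omega)]
  rw [cellOf_add a 16 0 1 (by norm_num) (by omega)]
  rw [cellOf_add a 17 1 1 (by norm_num) (by omega)]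
  rw [cellOf_add a 1 1 0 (by norm_num) (by omega)]
  refine List.ext_getElem rfl ?_
  intro i h1 h2
  simp only [List.length_cons, List.length_nil] at h1
  interval_cases i <;> ext <;> simp [act] <;> omega

theorem copy_list_6 (a : ℕ) (ha : a % 16 ≤ maxCol 6) :
    ∃ u : Cell, ∃ R' ∈ signedPermutationMatrices,
      (offs 6).map (fun j => cellOf (a + j)) = snakyList.map fun p => u + act R' p := by
  have ha' : a % 16 ≤ 14 := ha
  refine ⟨(((a % 16 : ℕ) : ℤ) + 1, ((a / 16 : ℕ) : ℤ)), !![0, -1; 1, 0], by decide, ?_⟩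
  simp only [offs, snakyList, List.map_cons, List.map_nil]
  rw [cellOf_add a 1 1 0 (by norm_num) (by omega)]
  rw [cellOf_add a 17 1 1 (by norm_num) (by omega)]
  rw [cellOf_add a 33 1 2 (by norm_num) (by omega)]
  rw [cellOf_add a 49 1 3 (by norm_num) (by omega)]
  rw [cellOf_add a 48 0 3 (by norm_num) (by omega)]
  rw [cellOf_add a 64 0 4 (by norm_num) (by omega)]
  refine List.ext_getElem rfl ?_
  intro i h1 h2
  simp only [List.length_cons, List.length_nil] at h1
  interval_cases i <;> ext <;> simp [act] <;> omega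

theorem copy_list_7 (a : ℕ) (ha : a % 16 ≤ maxCol 7) :
    ∃ u : Cell, ∃ R' ∈ signedPermutationMatrices,
      (offs 7).map (fun j => cellOf (a + j)) = snakyList.map fun p => u + act R' p := by
  have ha' : a % 16 ≤ 14 := ha
  refine ⟨(((a % 16 : ℕ) : ℤ) + 1, ((a / 16 : ℕ) : ℤ) + 4), !![0, -1; -1, 0], by decide, ?_⟩
  simp only [offs, snakyList, List.map_cons, List.map_nil]
  rw [cellOf_add a 65 1 4 (by norm_num) (by omega)]
  rw [cellOf_add a 49 1 3 (by norm_num) (by omega)]
  rw [cellOf_add a 33 1 2 (by norm_num) (by omega)]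
  rw [cellOf_add a 17 1 1 (by norm_num) (by omega)]
  rw [cellOf_add a 16 0 1 (by norm_num) (by omega)]
  rw [cellOf_add a 0 0 0 (by norm_num) (by omega)]
  refine List.ext_getElem rfl ?_
  intro i h1 h2
  simp only [List.length_cons, List.length_nil] at h1
  interval_cases i <;> ext <;> simp [act] <;> omega

theorem copy_list (o a : ℕ) (ho : o < 8) (ha : a % 16 ≤ maxCol o) :
    ∃ u : Cell, ∃ R' ∈ signedPermutationMatrices,
      (offs o).map (fun j => cellOf (a + j)) = snakyList.map fun p => u + act R' p := by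
  interval_cases o
  · exact copy_list_0 a ha
  · exact copy_list_1 a ha
  · exact copy_list_2 a ha
  · exact copy_list_3 a ha
  · exact copy_list_4 a ha
  · exact copy_list_5 a ha
  · exact copy_list_6 a ha
  · exact copy_list_7 a ha

theorem copy_of_orientation {e : ℕ → Cell} (he : IsFrame e) (o a : ℕ) (ho : o < 8)
    (ha : a % 16 ≤ maxCol o) :
    IsAllowedCopy (((offs o).map fun j => e (a + j)).toFinset) := by
  obtain ⟨t, R, hR, h⟩ := he
  obtain ⟨u, R', hR', hkey⟩ := copy_list o a ho ha
  refine ⟨t + act R u, R * R', mul_mem hR hR', ?_⟩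
  have h1 : ((offs o).map fun j => e (a + j))
      = ((offs o).map fun j => cellOf (a + j)).map fun p => t + act R p := by
    rw [List.map_map]
    exact List.map_congr_left fun j _ => h (a + j)
  rw [h1, hkey, List.map_map, ← snakyList_toFinset]
  ext c
  simp only [List.mem_toFinset, List.mem_map, Finset.mem_image, Function.comp, act_mul, act_add,
    add_assoc]

/-- If all bits of the copy with code `(o, a)` are mapped into `S` by the frame `e`, then `S`
contains an allowed copy. -/
theorem exists_copy {e : ℕ → Cell} (he : IsFrame e) (o a : ℕ) (ho : o < 8)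
    (ha : a % 16 ≤ maxCol o) (S : Set Cell)
    (hS : ∀ i, (base o <<< a).testBit i = true → e i ∈ S) :
    ∃ C, IsAllowedCopy C ∧ ∀ c ∈ C, c ∈ S := by
  refine ⟨_, copy_of_orientation he o a ho ha, ?_⟩
  intro c hc
  simp only [List.mem_toFinset, List.mem_map] at hc
  obtain ⟨j, hj, rfl⟩ := hc
  refine hS _ ?_
  rw [Nat.testBit_shiftLeft]
  simp [offs_testBit o ho j hj]

end Vale.Agent.P062
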